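import Mathlib

namespace Vale.Agent.Lib.P012

theorem final_real : ∃ C : ℝ, ∀ b : ℕ, 16 ≤ b →
    ((3183 * (Nat.log 2 (Nat.log 2 b) + 16) * (Nat.log 2 (Nat.log 2 (Nat.log 2 b) + 16) + 1) : ℕ) : ℝ)
      ≤ C * Real.log (Real.log b) * Real.log (Real.log (Real.log b)) := by
  refine ⟨3183 * 19 * 400, ?_⟩
  intro b hb
  set L := Nat.log 2 b with hL
  set j := Nat.log 2 L with hj
  set K := Nat.log 2 (j + 16) with hK
  have hl1 := Real.log_two_gt_d9
  have hl2 := Real.log_two_lt_d9
  have he := Real.exp_one_lt_d9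
  have hepos := Real.exp_pos 1
  have hb16 : (16 : ℝ) ≤ b := by exact_mod_cast hb
  have hbpos : (0 : ℝ) < b := by linarith
  have hlog16 : Real.log 16 = 4 * Real.log 2 := by
    rw [show (16 : ℝ) = 2 ^ 4 by norm_num, Real.log_pow]; norm_num
  have hlogb : 4 * Real.log 2 ≤ Real.log b := by
    rw [← hlog16]; exact Real.log_le_log (by norm_num) hb16
  have hlogbpos : 0 < Real.log b := by linarith
  set X := Real.log (Real.log b) with hXdef
  have hX : (1.0195 : ℝ) ≤ X := by
    have h1 : Real.log (Real.log b / Real.exp 1) = X - 1 := by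
      rw [Real.log_div hlogbpos.ne' hepos.ne', Real.log_exp]
    have h2 : 1 - (Real.log b / Real.exp 1)⁻¹ ≤ Real.log (Real.log b / Real.exp 1) :=
      Real.one_sub_inv_le_log_of_pos (by positivity)
    have h3 : (Real.log b / Real.exp 1)⁻¹ = Real.exp 1 / Real.log b := by
      rw [inv_div]
    have h4 : Real.exp 1 / Real.log b ≤ 0.9805 := by
      rw [div_le_iff₀ hlogbpos]
      linarith
    rw [h1, h3] at h2
    linarith
  have hXpos : 0 < X := by linarith
  set Y := Real.log X with hYdef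
  have hY : (0.019 : ℝ) ≤ Y := by
    have h2 : 1 - X⁻¹ ≤ Real.log X := Real.one_sub_inv_le_log_of_pos hXpos
    have h4 : X⁻¹ ≤ 0.981 := by
      rw [inv_le_comm₀ hXpos (by norm_num)]
      have : ((0.981 : ℝ))⁻¹ ≤ 1.0195 := by norm_num
      linarith
    linarith
  have hL4 : 4 ≤ L := by
    rw [hL]
    exact (Nat.le_log_iff_pow_le (by norm_num) (by omega)).mpr (by omega)
  have hLb : (2 : ℕ) ^ L ≤ b := Nat.pow_log_le_self 2 (by omega)
  have hjL : (2 : ℕ) ^ j ≤ L := Nat.pow_log_le_self 2 (by omega)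
  have hKj : (2 : ℕ) ^ K ≤ j + 16 := Nat.pow_log_le_self 2 (by omega)
  have hLr : (L : ℝ) * Real.log 2 ≤ Real.log b := by
    have e1 : ((2 : ℝ)) ^ L ≤ b := by exact_mod_cast hLb
    have e2 := Real.log_le_log (by positivity) e1
    rw [Real.log_pow] at e2
    exact e2
  have hLpos : (0 : ℝ) < L := by
    have : (4 : ℝ) ≤ L := by exact_mod_cast hL4
    linarith
  have hL2 : (L : ℝ) ≤ 2 * Real.log b := by
    have e0 := mul_nonneg hLpos.le (show (0 : ℝ) ≤ Real.log 2 - 0.5 by linarith)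
    linarith
  have hjr : (j : ℝ) * Real.log 2 ≤ Real.log 2 + X := by
    have e1 : ((2 : ℝ)) ^ j ≤ L := by exact_mod_cast hjL
    have e2 := Real.log_le_log (by positivity) e1
    rw [Real.log_pow] at e2
    have e3 := Real.log_le_log hLpos hL2
    rw [Real.log_mul (by norm_num) hlogbpos.ne'] at e3
    linarith
  have hj0 : (0 : ℝ) ≤ j := Nat.cast_nonneg j
  have hρ : (j : ℝ) + 16 ≤ 19 * X := by
    by_contra hcon
    push Not at hcon
    have e1 := mul_pos (sub_pos.mpr hcon) (show (0 : ℝ) < Real.log 2 by linarith)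
    have e2 := mul_nonneg (show (0 : ℝ) ≤ Real.log 2 - 0.6931471803 by linarith) hXpos.le
    linarith
  have hlog32 : Real.log 32 = 5 * Real.log 2 := by
    rw [show (32 : ℝ) = 2 ^ 5 by norm_num, Real.log_pow]; norm_num
  have hKr : (K : ℝ) * Real.log 2 ≤ 5 * Real.log 2 + Y := by
    have e1 : ((2 : ℝ)) ^ K ≤ (j : ℝ) + 16 := by exact_mod_cast hKj
    have e2 := Real.log_le_log (by positivity) e1
    rw [Real.log_pow] at e2
    have e3 : (j : ℝ) + 16 ≤ 32 * X := by linarith
    have e4 := Real.log_le_log (by positivity) e3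
    rw [Real.log_mul (by norm_num) hXpos.ne', hlog32] at e4
    linarith
  have hK0 : (0 : ℝ) ≤ K := Nat.cast_nonneg K
  have hK1 : (K : ℝ) + 1 ≤ 400 * Y := by
    by_contra hcon
    push Not at hcon
    have e1 := mul_pos (sub_pos.mpr hcon) (show (0 : ℝ) < Real.log 2 by linarith)
    have e2 := mul_nonneg (show (0 : ℝ) ≤ Real.log 2 - 0.6931471803 by linarith)
        (show (0 : ℝ) ≤ Y by linarith)
    linarith
  have hprod : ((j : ℝ) + 16) * ((K : ℝ) + 1) ≤ (19 * X) * (400 * Y) :=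
    mul_le_mul hρ hK1 (by linarith) (by linarith)
  have hfin : ((3183 * (j + 16) * (K + 1) : ℕ) : ℝ) = 3183 * (((j : ℝ) + 16) * ((K : ℝ) + 1)) := by
    push_cast
    ring
  rw [hfin]
  have hfin2 : (3183 : ℝ) * 19 * 400 * X * Y = 3183 * ((19 * X) * (400 * Y)) := by ring
  rw [hfin2]
  exact mul_le_mul_of_nonneg_left hprod (by norm_num)
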