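import Mathlib

namespace Vale.Agent.Lib.P012.H91

/-- `IsPractical F N`: every natural number `m < N` is a sum of at most `F` distinct
divisors of `N`. -/
def IsPractical (F N : ℕ) : Prop :=
  ∀ m : ℕ, m < N → ∃ D : Finset ℕ, D.card ≤ F ∧ (∀ d ∈ D, d ∣ N) ∧ ∑ d ∈ D, d = m

end Vale.Agent.Lib.P012.H91
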